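import Crest.Agent.N111.E4.Ut

/-!
# Row 111, module E (helper4): `LiftStmt`.
-/

set_option autoImplicit false
set_option linter.unusedSectionVars false

namespace Crest.Agent.N111

open MeasureTheory Topology Filter
open scoped InnerProductSpace

namespace E4

/-- `‖a‖^{it}` -/
noncomputable def nx (t : ℝ) (a : V) : ℂ := ex (t * Real.log ‖a‖)

lemma nx_bm (t : ℝ) : BM (nx t) := BM.ex (by fun_prop)

lemma exp_smul_nrm (a : V) : Real.exp (Real.log ‖a‖) • nrm a = a := by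
  rcases eq_or_ne a 0 with rfl | ha
  · simp
  rw [Real.exp_log (norm_pos_iff.2 ha), nrm, smul_smul, mul_inv_cancel₀ (norm_ne_zero_iff.2 ha),
    one_smul]

lemma norm_sg (a : V) : ‖sg a‖ = ‖a‖ := by rcases sg_eq a with h | h <;> simp [h]

lemma nrm_sg (a : V) : nrm (sg a) = sg (nrm a) := by
  rcases eq_or_ne a 0 with rfl | ha
  · rcases sg_eq (0 : V) with h | h <;> simp [h]
  rw [nrm, nrm, norm_sg, sg_smul (inv_pos.2 (norm_pos_iff.2 ha))]

lemma ex_inj {a b : ℝ} (h : ∀ t, ex (a * t) = ex (b * t)) : a = b := by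
  by_contra hne
  have h1 := h (Real.pi / (a - b))
  have e : a * (Real.pi / (a - b)) = b * (Real.pi / (a - b)) + Real.pi := by
    field_simp [sub_ne_zero.2 hne]; ring
  have h2 : ex Real.pi = -1 := by rw [ex, mul_comm, Complex.exp_pi_mul_I]
  have h3 : ex (b * (Real.pi / (a - b))) ≠ 0 := norm_ne_zero_iff.1 (by simp)
  rw [e, ex_add, h2, mul_eq_left₀ h3] at h1
  norm_num at h1

variable {K : Type} [NormedAddCommGroup K] [InnerProductSpace ℂ K] [CompleteSpace K]

/-- even functions are generated by the projective functions and the norm -/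
theorem ext_ev {W W' : (V → ℂ) → K →L[ℂ] K} (h : IsPoly1 W) (h' : IsPoly1 W')
    (e : ∀ g, BM g → Hom0 g → ∀ t, W (fun a => g a * nx t a) = W' fun a => g a * nx t a)
    {f : V → ℂ} (hf : BM f) (he : Ev f) : W f = W' f := by
  have hφ : Measurable fun a : V => (sg (nrm a), Real.log ‖a‖) := by fun_prop
  have h1 := ((h.mclass h').comp hφ).of_prod (fun g u hg hu => ?_)
    (F := fun z : V × ℝ => f (Real.exp z.2 • z.1)) (hf.comp (by fun_prop))
  · have e1 : (fun a => f (Real.exp (Real.log ‖a‖) • sg (nrm a))) = f := by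
      funext a
      rw [← sg_smul (Real.exp_pos _), exp_smul_nrm, he.sg]
    simpa only [e1] using h1
  · have hg' := hg.comp (measurable_sg.comp measurable_nrm)
    have hl : Measurable fun a : V => Real.log ‖a‖ := by fun_prop
    exact (h.comp hl hg').ext_ex (h'.comp hl hg') (e _ hg' (hom0_sg_nrm g)) u hu

variable {I : Ind K} {Φ : V → POVM V K} {v : ℝ → K →L[ℂ] K}

/-- the lift at the base point -/
theorem exists_base (hΦ : I.IsPro Φ) (v0 : v 0 = 1) (vadd : ∀ s t, v (s + t) = v s * v t)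
    (vn : ∀ t η, ‖v t η‖ = ‖η‖) (vc : ∀ η, Continuous fun t => v t η)
    (hc : ∀ t f, BM f → Commute (v t) ((Φ (ev 0)).E f)) :
    ∃ A : POVM V K, A.IsPVM ∧ (∀ f, BM f → A.E f = A.E fun a => f (sg a)) ∧ A.E (ic {0}) = 0 ∧
      ∀ g, BM g → Hom0 g → ∀ t, A.E (fun a => g a * nx t a) = (Φ (ev 0)).E g * v t := by
  obtain ⟨P, hP, hPv⟩ := POVM.stone v v0 vadd vn vc
  obtain ⟨J, hJ, hJe⟩ := POVM.exists_joint (hΦ.pvm (ev 0)) hP fun f g hf hg => by
    have := (P.isPoly1.mul ((Φ (ev 0)).E f) 1).ext_ex (P.isPoly1.mul 1 ((Φ (ev 0)).E f))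
      (fun t => by rw [hPv, mul_one, one_mul, (hc t f hf).eq]) g hg
    rwa [mul_one, one_mul] at this
  have hφ : Measurable fun z : V × ℝ => Real.exp z.2 • sg (nrm z.1) := by fun_prop
  have h0 : MeasurableSet ({0} : Set V) := measurableSet_singleton 0
  have hz : J.E (ic (Prod.fst ⁻¹' {0})) = 0 := by
    have := hJe _ _ (BM.ic h0) (BM.const 1)
    simp only [mul_one, hΦ.zero, zero_mul] at this
    exact this
  have hn : ∀ z : V × ℝ, z.1 ≠ 0 → ‖Real.exp z.2 • sg (nrm z.1)‖ = Real.exp z.2 := fun z hz => by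
    rw [norm_smul, norm_sg, norm_nrm hz, mul_one, Real.norm_of_nonneg (Real.exp_pos _).le]
  refine ⟨J.map _ hφ, hJ.map _ _, fun f _ => ?_, ?_, fun g hg h0g t => ?_⟩
  · simp only [POVM.map_E, sg_smul (Real.exp_pos _), sg_sg]
  · rw [POVM.map_E, ← J.E_zero]
    refine J.E_congr_of_null (measurable_fst h0) hz ((BM.ic h0).comp hφ) BM.zero fun z h => ?_
    refine ic_of_notMem fun h' => (Real.exp_pos z.2).ne' ?_
    rw [← hn z h, show Real.exp z.2 • sg (nrm z.1) = 0 from h', norm_zero]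
  · rw [← hPv, ← hJe _ _ hg (BM.ex (by fun_prop)), POVM.map_E]
    refine J.E_congr_of_null (measurable_fst h0) hz ((hg.mul (nx_bm t)).comp hφ)
      ((hg.comp measurable_fst).mul (BM.ex (by fun_prop))) fun z h => ?_
    rw [nx, hn z h, Real.log_exp, h0g _ (Real.exp_pos _).ne', h0g.ev.sg, h0g.nrm]

variable (I v) in
/-- `q` acts on the group by the character `l` -/
def Ch (q : G) (l : ℝ) : Prop := ∀ t, I.U q * v t * I.U q⁻¹ = ex (l * t) • v t

lemma Ch.mul {q q' : G} {l l' : ℝ} (h : Ch I v q l) (h' : Ch I v q' l') :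
    Ch I v (q * q') (l + l') := fun t => by
  rw [mul_inv_rev, map_mul, map_mul, add_mul, ex_add, mul_comm (ex _), mul_smul, ← h t,
    ← smul_mul_assoc, ← mul_smul_comm, ← h' t]
  simp only [mul_assoc]

lemma ch_one : Ch I v 1 0 := fun t => by simp

lemma v_ne (vn : ∀ t η, ‖v t η‖ = ‖η‖) (I : Ind K) (t : ℝ) : v t ≠ 0 := fun h =>
  I.ξ_ne (by simpa [h] using (vn t I.ξ).symm)

lemma Ch.unique (vn : ∀ t η, ‖v t η‖ = ‖η‖) {q : G} {l l' : ℝ} (h : Ch I v q l)
    (h' : Ch I v q l') : l = l' :=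
  ex_inj fun t => smul_left_injective ℂ (v_ne vn I t) ((h t).symm.trans (h' t))

section
variable (hΦ : I.IsPro Φ) (v0 : v 0 = 1) (vadd : ∀ s t, v (s + t) = v s * v t)
  (vn : ∀ t η, ‖v t η‖ = ‖η‖) (vc : ∀ η, Continuous fun t => v t η) (hU : ∀ t, Ut I Φ t (v t))
include hΦ v0 vadd vn vc hU

theorem exists_ch {q : G} {z : ℝ} (hz : z ≠ 0) (hq : ac q (ev 0) = z • ev 0) : ∃ l, Ch I v q l := by
  have hs : ∀ t, v t * star (v t) = 1 := fun t => by
    let ρ : URep (Multiplicative ℝ) K := URep.mk' (fun t => v t.toAdd) v0 (fun _ _ => vadd _ _)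
      fun _ => vn _
    exact (ρ.mem_unitary (Multiplicative.ofAdd t)).2
  choose χ hχ using fun t => (hU t).eq_smul hΦ (hs t) ((hU t).conj hΦ hz hq)
  have hξ : (‖I.ξ‖ : ℂ) ^ 2 ≠ 0 := by simpa using I.ξ_ne
  have hc : Continuous χ := by
    have e : χ = fun t => ⟪v t I.ξ, I.U q (v t (I.U q⁻¹ I.ξ))⟫_ℂ / (‖I.ξ‖ : ℂ) ^ 2 := by
      funext t
      rw [← mul_apply_eq_comp, ← mul_apply_eq_comp, hχ, smul_apply, inner_smul_right,
        inner_self_eq_norm_sq_to_K, vn]
      exact (mul_div_cancel_right₀ _ hξ).symm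
    rw [e]
    exact ((vc _).inner ((I.U q).continuous.comp (vc _))).div_const _
  obtain ⟨l, hl⟩ := exists_char hc (fun s t => smul_left_injective ℂ (v_ne vn I (s + t)) (by
    have e : I.U q * (v s * v t) * I.U q⁻¹ = I.U q * v s * I.U q⁻¹ * (I.U q * v t * I.U q⁻¹) := by
      simp only [mul_assoc]
      rw [← mul_assoc (I.U q⁻¹), URep.inv_mul_self, one_mul]
    simp only
    rw [← hχ, vadd, e, hχ, hχ, smul_mul_smul_comm])) fun t => by
      have := congrArg (fun T : K →L[ℂ] K => ‖T I.ξ‖) (hχ t)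
      simp only [mul_apply_eq_comp, URep.norm_map, vn, smul_apply, norm_smul] at this
      exact (mul_eq_right₀ (norm_ne_zero_iff.2 I.ξ_ne)).1 this.symm
  exact ⟨l, fun t => hl t ▸ hχ t⟩

theorem ch_stab {g : G} (hg : ac g (ev 0) = ev 0) : Ch I v g 0 := by
  refine stab_induction (fun g => Ch I v g 0) ch_one (fun g h hg hh => by simpa using hg.mul hh)
    (fun i k h b hk => ?_) hg
  obtain ⟨l, hl⟩ := exists_ch hΦ v0 vadd vn vc hU (q := tv h b) one_ne_zero
    (by rw [ac_tv]; simp [ev, hk])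
  obtain ⟨p, q, hpq⟩ : ∃ p q, dgl p q i - dgl p q k = Real.log 2 := by
    refine ⟨if i = 0 then Real.log 2 else if k = 2 then -Real.log 2 else 0,
      if i = 1 then Real.log 2 else if i = 0 ∧ k = 2 then -Real.log 2
        else if i = 2 then -Real.log 2 / 2 else 0, ?_⟩
    fin_cases i <;> fin_cases k <;> simp [dgl] at h hk ⊢
    ring
  have hd : ∀ p q, ∃ m, Ch I v (dg p q) m := fun p q =>
    exists_ch hΦ v0 vadd vn vc hU (Real.exp_pos p).ne' (by
      funext j; rw [ac_dg]; fin_cases j <;> simp [ev, dgl])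
  obtain ⟨m, hm⟩ := hd p q
  obtain ⟨m', hm'⟩ := hd (-p) (-q)
  rw [← dg_inv] at hm'
  have h1 := (hm.mul hm').unique vn (by simpa using ch_one)
  have h2 := (hm.mul hl).mul hm'
  rw [dg_conj_tv, hpq, Real.exp_log two_pos, two_mul, tv_add] at h2
  have h3 := h2.unique vn (hl.mul hl)
  rwa [show l = 0 by linarith] at hl

theorem exists_sc : ∃ l : ℝ → ℝ, ∀ z, z ≠ 0 → ∀ q, ac q (ev 0) = z • ev 0 → Ch I v q (l z) := by
  have : ∀ z : ℝ, ∃ l, z ≠ 0 → ∀ q, ac q (ev 0) = z • ev 0 → Ch I v q l := fun z => by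
    rcases eq_or_ne z 0 with rfl | hz
    · exact ⟨0, fun h => absurd rfl h⟩
    obtain ⟨q₀, h₀⟩ := exists_ac_ev (smul_ne_zero hz (ev_ne_zero 0)) 0
    obtain ⟨l, hl⟩ := exists_ch hΦ v0 vadd vn vc hU hz h₀
    refine ⟨l, fun _ q hq => ?_⟩
    simpa using hl.mul (ch_stab hΦ v0 vadd vn vc hU (g := q₀⁻¹ * q)
      (by rw [ac_mul, hq, ← h₀, ac_inv_ac]))
  exact ⟨_, fun z => (this z).choose_spec⟩

end

end E4

open E4

theorem E4.lift : LiftStmt := by
  intro K _ _ _ I L Φ hL hΦ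
  obtain ⟨v, v0, vadd, vn, vc, hU, hgen, hlift⟩ := exists_group hL hΦ
  obtain ⟨A, hA, hconc, hz, hE⟩ := exists_base hΦ v0 vadd vn vc fun t => (hU t).comm
  obtain ⟨l, hl⟩ := exists_sc hΦ v0 vadd vn vc hU
  have hsg : ∀ {f : V → ℂ}, BM f → BM fun a => f (sg a) := fun hf => hf.comp measurable_sg
  have esg : ∀ f : V → ℂ, Ev fun a => f (sg a) := fun f a => by simp only [sg_neg]
  have hcomp : ∀ φ : V → V, Measurable φ → IsPoly1 fun f : V → ℂ => A.E fun a => f (φ a) :=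
    fun φ hφ => (A.map φ hφ).isPoly1
  have h0 : MeasurableSet ({0} : Set V) := measurableSet_singleton 0
  have hq : ∀ z, z ≠ 0 → ∀ q, ac q (ev 0) = z • ev 0 → ∀ f, BM f →
      I.U q * A.E f * I.U q⁻¹ = A.E fun a => f (Real.exp (l z) • a) := fun z hz0 q hq f hf => by
    have hφ : Measurable fun a : V => Real.exp (l z) • a := measurable_const_smul _
    rw [hconc f hf, hconc _ (hf.comp hφ)]
    simp only [← sg_smul (Real.exp_pos _)]
    refine ext_ev (A.isPoly1.mul _ _) (hcomp _ hφ) (fun g hg hg0 t => ?_) (hsg hf) (esg f)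
    rw [hE g hg hg0, ← mul_assoc, (conj_Φ hΦ hz0 hq hg).eq, mul_assoc, mul_assoc,
      ← mul_assoc (I.U q), hl z hz0 q hq, mul_smul_comm, ← hE g hg hg0,
      ← A.E_smul _ (hg.mul (nx_bm t))]
    refine A.E_congr_of_null h0 hz ((hg.mul (nx_bm t)).const_mul _)
      ((hg.mul (nx_bm t)).comp hφ) fun a ha => ?_
    simp only
    rw [hg0 _ (Real.exp_pos _).ne', nx, nx, norm_smul, Real.norm_of_nonneg (Real.exp_pos _).le,
      Real.log_mul (Real.exp_pos _).ne' (norm_ne_zero_iff.2 ha), Real.log_exp, mul_add, ex_add,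
      mul_comm t (l z), mul_left_comm]
  have hl1 : l 1 = 0 := (hl 1 one_ne_zero 1 (by simp)).unique vn ch_one
  choose gx hgx using fun x : V => (em (x = 0)).elim
    (fun h => (⟨1, fun h' => absurd h h'⟩ : ∃ g : G, x ≠ 0 → ac g (ev 0) = x))
    fun h => (exists_ac_ev h 0).imp fun _ hg _ => hg
  let B : V → POVM V K := fun x => A.conj (I.U (gx x)) (I.U.mem_unitary _).2
  have hB0 : ∀ x f, (B x).E f = I.U (gx x) * A.E f * I.U (gx x)⁻¹ := fun x f => by
    simp only [B, POVM.conj_E, URep.star_apply]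
  have hB : ∀ g f, BM f → (B (ac g (ev 0))).E f = I.U g * A.E f * I.U g⁻¹ := fun g f hf => by
    have := hq 1 one_ne_zero (g⁻¹ * gx (ac g (ev 0)))
      (by rw [ac_mul, hgx _ (ac_ne_zero g (ev_ne_zero 0)), ac_inv_ac, one_smul]) f hf
    simp only [hl1, Real.exp_zero, one_smul] at this
    have e := congrArg (fun T => I.U g * T * I.U g⁻¹) this
    simp only [mul_inv_rev, inv_inv, map_mul, ← mul_assoc, URep.mul_inv_self, one_mul] at e
    simp only [mul_assoc, URep.mul_inv_self, mul_one] at e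
    rw [hB0, mul_assoc, mul_assoc, e]
  have hB1 : ∀ f, BM f → (B (ev 0)).E f = A.E f := fun f hf => by simpa using hB 1 f hf
  refine ⟨B, fun z => Real.exp (l z), fun x => hA.conj _ _ (I.U.mem_unitary _).1,
    fun x f hf => by rw [hB0, hB0, hconc f hf], fun x => by rw [hB0, hz, mul_zero, zero_mul],
    fun x hx f hf => ?_, fun x hx f hf g => ?_, fun z _ => Real.exp_pos _, fun z w hz0 hw0 => ?_,
    fun x hx z hz0 f hf => ?_, fun x hx f hf he ν => ?_, fun S hS f hf => ?_, ?_⟩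
  · have := hE _ (hf.comp (measurable_sg.comp measurable_nrm)) (hom0_sg_nrm f) 0
    simp only [nx, zero_mul, ex_zero, mul_one, v0, Function.comp] at this
    rw [hB0, hconc _ (hf.comp measurable_nrm)]
    simp only [nrm_sg]
    rw [this, ← hΦ.conc _ f hf, hΦ.covU _ (ev_ne_zero 0) f hf, hgx x hx]
  · obtain ⟨k, rfl⟩ := exists_ac_ev hx 0
    rw [← ac_mul, hB _ f hf, hB _ f hf, mul_inv_rev, map_mul, map_mul]
    simp only [mul_assoc]
  · obtain ⟨q, h⟩ := exists_ac_ev (smul_ne_zero hz0 (ev_ne_zero 0)) 0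
    obtain ⟨q', h'⟩ := exists_ac_ev (smul_ne_zero hw0 (ev_ne_zero 0)) 0
    rw [← Real.exp_add, ((hl z hz0 q h).mul (hl w hw0 q' h')).unique vn
      (hl _ (mul_ne_zero hz0 hw0) _ (by rw [ac_mul, h', ac_smul, h, smul_smul, mul_comm]))]
  · obtain ⟨k, rfl⟩ := exists_ac_ev hx 0
    obtain ⟨q, h⟩ := exists_ac_ev (smul_ne_zero hz0 (ev_ne_zero 0)) 0
    rw [← ac_smul, ← h, ← ac_mul, hB _ f hf, hB _ _ (hf.comp (measurable_const_smul _)),
      ← hq z hz0 q h f hf, mul_inv_rev, map_mul, map_mul]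
    simp only [mul_assoc]
  · have key : I.ρ ν * A.E f * I.ρ ν⁻¹ = A.E fun a => f (ac (ι ν⁻¹) a) := by
      refine ext_ev (A.isPoly1.mul _ _) (hcomp _ (measurable_ac _)) (fun g hg hg0 t => ?_) hf he
      have hg' := hg.comp (measurable_ac (ι ν⁻¹))
      have e : I.ρ ν * ((Φ (ev 0)).E g * v t) * I.ρ ν⁻¹
          = I.ρ ν * (Φ (ev 0)).E g * I.ρ ν⁻¹ * (I.ρ ν * v t * I.ρ ν⁻¹) := by
        simp only [mul_assoc]
        rw [← mul_assoc (I.ρ ν⁻¹), URep.inv_mul_self, one_mul]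
      rw [hE g hg hg0, e, hΦ.covρ _ (ev_ne_zero 0) g hg hg0, (hU t).ρ,
        ((hU t).comm _ (cy_bm _ _)).eq, ← mul_assoc, ← hΦ.pvm _ _ _ hg' (cy_bm _ _),
        ← hE _ (hg'.mul (cy_bm _ _)) fun z hz a => by
          simp only [hg0.ac _ z hz a, cy_hom0 _ _ z hz a]]
      congr 1
      funext a
      simp only [nx, cy]
      rw [log_norm_ac _ a, mul_add, ex_add, mul_assoc]
    rw [hB0, hB0, ← key]
    simp only [← mul_assoc, (I.Uρ _ ν).eq]
    simp only [mul_assoc, (I.Uρ _ ν⁻¹).eq]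
  · rw [hB1 f hf, hconc f hf]
    have := ext_ev (A.isPoly1.mul S 1) (A.isPoly1.mul 1 S) (fun g hg hg0 t => by
      rw [hE g hg hg0, mul_one, one_mul, ((hΦ.gen S hS g hg).mul_right (hgen S hS t)).eq])
      (hsg hf) (esg f)
    rwa [mul_one, one_mul] at this
  · obtain ⟨l, h1, h2, t₀, h3, h4⟩ := hlift
    refine ⟨l, h1, h2, t₀, h3, fun t ht => (h4 t ht).imp fun c hc => ⟨hc.1, ?_⟩⟩
    have := hE _ (BM.const 1) (fun _ _ _ => rfl) t
    simp only [one_mul, POVM.E_one] at this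
    have e := (hB1 _ (nx_bm t)).trans this
    exact e ▸ hc.2

end Crest.Agent.N111
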