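import Crest.Agent.N111.Api.FP

/-!
# Row 111, module E (helper4): the one-parameter group of the lift.
-/

set_option autoImplicit false
set_option linter.unusedSectionVars false

namespace Crest.Agent.N111.E4

open MeasureTheory Topology Filter
open scoped InnerProductSpace

/-- the norm cocycle -/
noncomputable def cy (g : G) (t : ℝ) (a : V) : ℂ := ex (t * Real.log ‖ac g (nrm a)‖)

lemma cy_hom0 (g : G) (t : ℝ) : Hom0 (cy g t) :=
  Ev.hom0_nrm (f := fun a => ex (t * Real.log ‖ac g a‖)) fun a => by simp only [ac_neg, norm_neg]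

lemma cy_bm (g : G) (t : ℝ) : BM (cy g t) := BM.ex (by fun_prop)

lemma cy_cont (g : G) (t : ℝ) : ContinuousOn (cy g t) {0}ᶜ := by
  refine continuous_ex.comp_continuousOn (continuousOn_const.mul (ContinuousOn.log
    ((continuous_ac g).comp_continuousOn continuousOn_nrm).norm fun a ha => ?_))
  refine norm_ne_zero_iff.2 (ac_ne_zero g (norm_ne_zero_iff.1 ?_))
  rw [norm_nrm ha]; exact one_ne_zero

lemma log_norm_ac (g : G) (a : V) :
    Real.log ‖ac g a‖ = Real.log ‖ac g (nrm a)‖ + Real.log ‖a‖ := by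
  rcases eq_or_ne a 0 with rfl | ha
  · simp
  have h1 := norm_ne_zero_iff.2 ha
  have h2 := norm_ne_zero_iff.2 (ac_ne_zero g ha)
  rw [nrm, ac_smul, norm_smul, norm_inv, norm_norm, Real.log_mul (inv_ne_zero h1) h2, Real.log_inv]
  ring

lemma tv_mul_stab {q : G} {z : ℝ} (hz : z ≠ 0) (hq : ac q (ev 0) = z • ev 0) {k : Fin 3}
    (h : (0 : Fin 3) ≠ k) (b : ℝ) : tv h b * q = q * (tv (show (0 : Fin 3) ≠ 1 by decide)
      (b * q k 1 / z) * tv (show (0 : Fin 3) ≠ 2 by decide) (b * q k 2 / z)) := by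
  have e : ∀ i, q i 0 = if i = 0 then z else 0 := fun i => by
    rw [← ac_ev, hq]; by_cases hi : i = 0 <;> simp [ev, hi]
  ext i j
  rw [← mul_assoc, tv_mul_apply, mul_tv_apply, mul_tv_apply, mul_tv_apply, e i]
  have := e k
  rw [if_neg h.symm] at this
  by_cases hi : i = 0 <;> fin_cases j <;> simp [hi, this] <;> field_simp

lemma of_small {P : ℝ → Prop} {δ : ℝ} (hδ : 0 < δ) (h : ∀ t, |t| < δ → P t)
    (hadd : ∀ s t, P s → P t → P (s + t)) (t : ℝ) : P t := by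
  obtain ⟨n, hn⟩ := exists_nat_gt (|t| / δ)
  have h1 : |t / (n + 1)| < δ := by
    rw [abs_div, abs_of_pos (a := (n + 1 : ℝ)) (by positivity), div_lt_iff₀ (by positivity)]
    rw [div_lt_iff₀ hδ] at hn
    nlinarith
  have h2 : ∀ m : ℕ, P ((m + 1) * (t / (n + 1))) := fun m => by
    induction m with
    | zero => simpa using h _ h1
    | succ m ih => rw [Nat.cast_succ, add_mul _ 1, one_mul]; exact hadd _ _ ih (h _ h1)
  simpa [mul_div_cancel₀ t (show (n + 1 : ℝ) ≠ 0 by positivity)] using h2 n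

variable {K : Type} [NormedAddCommGroup K] [InnerProductSpace ℂ K] [CompleteSpace K]

lemma norm_le_of_wtends {α : Type*} {l : Filter α} [l.NeBot] {T : α → K →L[ℂ] K} {T₀ : K →L[ℂ] K}
    (h : WTends l T T₀) {η : K} {C : ℝ} (hC : ∀ᶠ k in l, ‖T k η‖ ≤ C) : ‖T₀ η‖ ≤ C := by
  have h1 := le_of_tendsto (h (T₀ η) η).norm (hC.mono fun k hk =>
    (norm_inner_le_norm _ _).trans (mul_le_mul_of_nonneg_left hk (norm_nonneg _)))
  rw [inner_self_eq_norm_sq_to_K, norm_pow, RCLike.norm_ofReal, abs_norm, sq] at h1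
  rcases (norm_nonneg (T₀ η)).eq_or_lt with h0 | h0
  · obtain ⟨k, hk⟩ := hC.exists
    exact h0 ▸ (norm_nonneg _).trans hk
  · exact le_of_mul_le_mul_left h1 h0

variable {I : Ind K} {L : ℕ → ℝ} {Φ : V → POVM V K}

/-- weak limits only see the shells -/
theorem wtends_congr (hL : I.Tight L) {l : Filter ℕ} (hl : l ≤ atTop) {F F' : ℕ → Γ → ℂ} {C : ℝ}
    (hF : ∀ k μ, ‖F k μ‖ ≤ C) (hF' : ∀ k μ, ‖F' k μ‖ ≤ C)
    (h : ∀ R ε : ℝ, 0 < ε → ∀ᶠ k in atTop, ∀ μ ∈ Sh (L k) R, ‖F' k μ - F k μ‖ ≤ ε)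
    {T : K →L[ℂ] K} (hT : WTends l (fun k => I.σ k (I.m (F k))) T) :
    WTends l (fun k => I.σ k (I.m (F' k))) T := fun ζ η => by
  have h1 := (hL.seq η).tendsto_mJ (C := ‖η‖) (Eventually.of_forall fun k => by simp)
    (fun k μ => norm_sub_le_of_le (hF' k μ) (hF k μ)) h
  have h2 : Tendsto (fun k => ⟪ζ, I.σ k (I.m (F' k)) η⟫_ℂ - ⟪ζ, I.σ k (I.m (F k)) η⟫_ℂ) atTop
      (𝓝 0) := by
    refine squeeze_zero_norm (fun k => ?_) (by simpa using h1.norm.const_mul ‖ζ‖)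
    rw [I.inner_σ, I.inner_σ, I.inner_m, I.inner_m, ← inner_sub_right, ← sub_apply,
      ← I.mJ_sub (bm_Γ (hF' k)) (bm_Γ (hF k))]
    exact (norm_inner_le_norm _ _).trans_eq (by rw [I.norm_J, URep.norm_map])
  simpa using (h2.mono_left hl).add (hT ζ η)

theorem limSet_comm (hΦ : I.IsPro Φ) {T : K →L[ℂ] K} (hT : T ∈ I.LimSet) {f : V → ℂ} (hf : BM f) :
    Commute T ((Φ (ev 0)).E f) := by
  obtain ⟨l, F, _, hl, hF, hT⟩ := hT
  have := IsPoly1.ext_hom0 ((Φ (ev 0)).isPoly1.mul T 1) ((Φ (ev 0)).isPoly1.mul 1 T)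
    (fun f hf h0 hc => by
      obtain ⟨h1, h2⟩ := hΦ.wtends_mul hf h0 hc hl hF hT
      rw [mul_one, one_mul, h1.unique h2]) _ (hf.comp (measurable_sg.comp measurable_nrm))
    (hom0_sg_nrm f)
  rw [hΦ.conc _ f hf]
  rw [mul_one, one_mul] at this
  exact this

variable (I Φ) in
/-- the operators of weight `t` -/
structure Ut (t : ℝ) (T : K →L[ℂ] K) : Prop where
  N : T ∈ I.N
  rad : ∀ (k : Fin 3) (h : (0 : Fin 3) ≠ k) (b : ℝ), Commute T (I.U (tv h b))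
  comm : ∀ f, BM f → Commute T ((Φ (ev 0)).E f)
  ρ : ∀ ν, I.ρ ν * T * I.ρ ν⁻¹ = T * (Φ (ev 0)).E (cy (ι ν⁻¹) t)

variable {s t : ℝ} {S T : K →L[ℂ] K}

lemma Ut.smul (h : Ut I Φ t T) (c : ℂ) : Ut I Φ t (c • T) :=
  ⟨Ind.smul_N c h.N, fun k hk b => (h.rad k hk b).smul_left c, fun f hf => (h.comm f hf).smul_left c,
    fun ν => by rw [mul_smul_comm, smul_mul_assoc, smul_mul_assoc, h.ρ]⟩

lemma Ut.mul (hΦ : I.IsPro Φ) (hS : Ut I Φ s S) (hT : Ut I Φ t T) : Ut I Φ (s + t) (S * T) :=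
  ⟨Ind.mul_N hS.N hT.N, fun k hk b => (hS.rad k hk b).mul_left (hT.rad k hk b),
    fun f hf => (hS.comm f hf).mul_left (hT.comm f hf), fun ν => by
      have e : I.ρ ν * (S * T) * I.ρ ν⁻¹ = I.ρ ν * S * I.ρ ν⁻¹ * (I.ρ ν * T * I.ρ ν⁻¹) := by
        simp only [mul_assoc]
        rw [← mul_assoc (I.ρ ν⁻¹), URep.inv_mul_self, one_mul]
      rw [e, hS.ρ, hT.ρ, mul_assoc S, ← mul_assoc _ T, ← (hT.comm _ (cy_bm _ _)).eq, mul_assoc T,
        ← hΦ.pvm _ _ _ (cy_bm _ _) (cy_bm _ _), mul_assoc]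
      congr 3
      funext a
      simp only [cy, add_mul, ex_add]⟩

lemma Ut.adj (h : Ut I Φ t T) : Ut I Φ (-t) (star T) := by
  have hc : ∀ f, BM f → Commute (star T) ((Φ (ev 0)).E f) := fun f hf => by
    simpa [POVM.E_star _ hf.conj] using (h.comm _ hf.conj).star_star
  refine ⟨Ind.star_N h.N, fun k hk b => ?_, hc, fun ν => ?_⟩
  · simpa [URep.star_apply, tv_inv] using (h.rad k hk (-b)).star_star
  · have := congrArg star (h.ρ ν)
    simp only [star_mul, URep.star_apply, inv_inv, POVM.E_star _ (cy_bm _ _)] at this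
    rw [mul_assoc, this, (hc _ (cy_bm _ _)).eq]
    congr 2
    funext a
    simp only [cy, conj_ex, neg_mul]

lemma Ut.scalar (h : Ut I Φ 0 T) : ∃ c : ℂ, T = c • (1 : K →L[ℂ] K) := by
  refine I.erg T h.N (fun ν => ?_) 0 1 (by decide) (h.rad 1 _)
  have := congrArg (· * I.ρ ν) (h.ρ ν)
  have e : cy (ι ν⁻¹) 0 = fun _ => 1 := by funext a; simp [cy]
  simp only [mul_assoc, URep.inv_mul_self, mul_one, e, POVM.E_one] at this
  exact this.symm

lemma Ut.eq_smul (hΦ : I.IsPro Φ) (hS : Ut I Φ t S) (hu : S * star S = 1) (hT : Ut I Φ t T) :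
    ∃ c : ℂ, T = c • S := by
  obtain ⟨c, hc⟩ := (neg_add_cancel t ▸ hS.adj.mul hΦ hT).scalar
  exact ⟨c, by rw [← one_mul T, ← hu, mul_assoc, hc, mul_smul_comm, mul_one]⟩

lemma conj_Φ (hΦ : I.IsPro Φ) {q : G} {z : ℝ} (hz : z ≠ 0) (hq : ac q (ev 0) = z • ev 0)
    {f : V → ℂ} (hf : BM f) : Commute (I.U q) ((Φ (ev 0)).E f) := by
  have := congrArg (· * I.U q) (hΦ.covU _ (ev_ne_zero 0) f hf q)
  simp only [mul_assoc, URep.inv_mul_self, mul_one, hq, hΦ.scal _ (ev_ne_zero 0) z hz f hf] at this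
  exact this

lemma Ut.conj (hΦ : I.IsPro Φ) (h : Ut I Φ t T) {q : G} {z : ℝ} (hz : z ≠ 0)
    (hq : ac q (ev 0) = z • ev 0) : Ut I Φ t (I.U q * T * I.U q⁻¹) := by
  have hi : ∀ f, BM f → Commute (I.U q⁻¹) ((Φ (ev 0)).E f) := fun f hf => by
    simpa [URep.star_apply, POVM.E_star _ hf.conj] using (conj_Φ hΦ hz hq hf.conj).star_star
  refine ⟨Ind.conj_N h.N q, fun k hk b => ?_, fun f hf =>
    ((conj_Φ hΦ hz hq hf).mul_left (h.comm f hf)).mul_left (hi f hf), fun ν => ?_⟩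
  · have e := tv_mul_stab hz hq hk b
    have hc := (h.rad 1 (by decide) (b * q k 1 / z)).mul_right (h.rad 2 (by decide) (b * q k 2 / z))
    rw [← map_mul] at hc
    change _ = _
    rw [← mul_assoc, ← mul_assoc, ← map_mul, e, map_mul, mul_assoc _ _ T, ← hc.eq]
    simp only [mul_assoc, ← map_mul]
    congr 3
    rw [inv_mul_eq_iff_eq_mul, ← mul_assoc (tv _ _), ← mul_assoc, ← e, mul_inv_cancel_right]
  · calc I.ρ ν * (I.U q * T * I.U q⁻¹) * I.ρ ν⁻¹
        = I.U q * (I.ρ ν * T * I.ρ ν⁻¹) * I.U q⁻¹ := by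
          simp only [← mul_assoc, (I.Uρ q ν).eq]
          simp only [mul_assoc, (I.Uρ q⁻¹ ν⁻¹).eq]
      _ = _ := by rw [h.ρ]; simp only [mul_assoc, (hi _ (cy_bm _ _)).eq]

/-- the oscillating functions -/
noncomputable def Fx (L : ℕ → ℝ) (t : ℝ) (k : ℕ) (μ : Γ) : ℂ :=
  ex (t * (Real.log (nm (ι μ)) - 2 * L k))

lemma norm_Fx (t : ℝ) (k : ℕ) (μ : Γ) : ‖Fx L t k μ‖ ≤ 1 := (norm_ex _).le

theorem ut_of_wtends (hL : I.Tight L) (hΦ : I.IsPro Φ) {l : Filter ℕ} [l.NeBot] (hl : l ≤ atTop)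
    (hT : WTends l (fun k => I.σ k (I.m (Fx L t k))) T) : Ut I Φ t T := by
  have hm : T ∈ I.LimSet := ⟨l, _, inferInstance, hl, norm_Fx t, hT⟩
  refine ⟨Ind.limSet_N hm, fun k hk => Ind.limSet_commute hm hk, fun f => limSet_comm hΦ hm,
    fun ν => ?_⟩
  have h1 := (hT.mul_left (I.ρ ν)).mul_right (I.ρ ν⁻¹)
  simp only [I.ρ_σ, I.ρ_m (bm_Γ (norm_Fx t _))] at h1
  refine h1.unique (wtends_congr hL hl (C := 1) (fun k μ => by simp [Fx, cy])
    (fun k μ => norm_Fx _ _ _) (fun R ε hε => ?_)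
    (hΦ.wtends_mul (cy_bm _ _) (cy_hom0 _ _) (cy_cont _ _) hl (norm_Fx t) hT).1)
  filter_upwards [hL.1.eventually (cov_nm ν⁻¹ R (show 0 < ε / (|t| + 1) by positivity))]
    with k hk μ hμ
  rw [Fx, Fx, cy, ← ex_add]
  refine (norm_ex_sub_ex_le _ _).trans ?_
  have := hk μ hμ
  rw [le_div_iff₀ (by positivity)] at this
  rw [← mul_add, ← mul_sub, abs_mul]
  ring_nf at this ⊢
  nlinarith [abs_nonneg (Real.log (nm (ι (ν⁻¹ * μ))) - Real.log (nm (ι μ))
    - Real.log ‖ac (ι ν⁻¹) (nrm (pt μ))‖)]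

theorem continuous_of_wtends (hL : I.Tight L) {l : Filter ℕ} [l.NeBot] (hl : l ≤ atTop)
    {E : ℝ → K →L[ℂ] K} (hE : ∀ t, WTends l (fun k => I.σ k (I.m (Fx L t k))) (E t)) (η : K) :
    Continuous fun t => E t η := by
  refine Metric.continuous_iff.2 fun s ε hε => ?_
  obtain ⟨R, hR⟩ := hL.seq η (ε / 4) (by positivity)
  refine ⟨ε / 4 / (|R| * ‖η‖ + 1), by positivity, fun t ht => ?_⟩
  have h1 : WTends l (fun k => I.σ k (I.m (Fx L t k)) - I.σ k (I.m (Fx L s k))) (E t - E s) :=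
    fun a b => by simpa only [sub_apply, inner_sub_right] using (hE t a b).sub (hE s a b)
  rw [dist_eq_norm, ← sub_apply]
  refine (norm_le_of_wtends h1 (C := |t - s| * |R| * ‖η‖ + 2 * (ε / 4)) ?_).trans_lt ?_
  · filter_upwards [hl hR] with k hk
    rw [← I.σ_sub, I.norm_σ_apply, ← I.mP_E, ← I.mP.E_sub (bm_Γ (norm_Fx t k)) (bm_Γ (norm_Fx s k))]
    refine (I.norm_m_apply_le _ _).trans ((I.norm_mJ_le_split (S := Sh (L k) R)
      (ε := |t - s| * |R|) (C := 2) (by positivity) (by norm_num) (fun μ hμ => ?_)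
      (fun μ => (norm_sub_le_of_le (norm_Fx _ _ _) (norm_Fx _ _ _)).trans_eq (by norm_num))
      _).trans (by rw [URep.norm_map]; gcongr))
    refine (norm_ex_sub_ex_le _ _).trans ?_
    rw [← sub_mul, abs_mul]
    exact mul_le_mul_of_nonneg_left (hμ.1.trans (le_abs_self R)) (abs_nonneg _)
  · rw [Real.dist_eq, lt_div_iff₀ (by positivity)] at ht
    nlinarith [abs_nonneg (t - s)]

/-- **the one-parameter group** -/
theorem exists_group (hL : I.Tight L) (hΦ : I.IsPro Φ) : ∃ v : ℝ → K →L[ℂ] K, v 0 = 1 ∧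
    (∀ s t, v (s + t) = v s * v t) ∧ (∀ t η, ‖v t η‖ = ‖η‖) ∧ (∀ η, Continuous fun t => v t η) ∧
    (∀ t, Ut I Φ t (v t)) ∧ (∀ S, (∀ T ∈ I.LimSet, Commute S T) → ∀ t, Commute S (v t)) ∧
    ∃ l : Filter ℕ, l.NeBot ∧ l ≤ atTop ∧ ∃ t₀ > (0 : ℝ), ∀ t : ℝ, |t| < t₀ →
      ∃ c : ℂ, c ≠ 0 ∧ WTends l (fun k => I.σ k (I.m (Fx L t k))) (c • v t) := by
  have hl : (hyperfilter ℕ : Filter ℕ) ≤ atTop := Nat.hyperfilter_le_atTop
  choose E _ hE using fun t : ℝ => exists_wtends (hyperfilter ℕ)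
    (T := fun k => I.σ k (I.m (Fx L t k))) (C := 1) (Eventually.of_forall fun k => by
      rw [I.norm_σ]; exact I.norm_m_le zero_le_one (norm_Fx t k))
  have hU := fun t => ut_of_wtends hL hΦ hl (hE t)
  have hc := continuous_of_wtends hL hl hE
  have hξ : 0 < ‖I.ξ‖ := norm_pos_iff.2 I.ξ_ne
  have h0 : E 0 = 1 := (hE 0).unique fun a b => by
    have e : ∀ k, Fx L 0 k = fun _ => 1 := fun k => by funext μ; simp [Fx]
    simp only [e, I.m_one, I.σ_one]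
    exact tendsto_const_nhds
  let r : ℝ → ℝ := fun t => ‖E t I.ξ‖ / ‖I.ξ‖
  have hr : Continuous r := (hc _).norm.div_const _
  obtain ⟨t₀, ht₀, hr0⟩ : ∃ t₀ > (0 : ℝ), ∀ t, |t| < t₀ → 0 < r t := by
    have : ∀ᶠ t in 𝓝 0, 0 < r t := hr.continuousAt.eventually (lt_mem_nhds (by
      simp only [r, h0, one_apply_eq_self]; positivity))
    simpa only [Real.dist_eq, sub_zero] using Metric.eventually_nhds_iff.1 this
  let u : ℝ → K →L[ℂ] K := fun t => ((r t : ℂ))⁻¹ • E t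
  have huU : ∀ t, Ut I Φ t (u t) := fun t => (hU t).smul _
  have hun : ∀ t, |t| < t₀ → u t ∈ unitary (K →L[ℂ] K) := fun t ht => by
    obtain ⟨c, hc⟩ := (neg_add_cancel t ▸ (huU t).adj.mul hΦ (huU t)).scalar
    obtain ⟨d, hd⟩ := (add_neg_cancel t ▸ (huU t).mul hΦ (huU t).adj).scalar
    have h1 : ‖u t I.ξ‖ = ‖I.ξ‖ := by
      have := (hr0 t ht).ne'
      simp only [u, smul_apply, norm_smul, norm_inv, Complex.norm_real,
        Real.norm_of_nonneg (hr0 t ht).le]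
      rw [inv_mul_eq_iff_eq_mul₀ this, div_mul_cancel₀ _ hξ.ne']
    have h2 : c = 1 := by
      have := congrArg (fun T : K →L[ℂ] K => ⟪I.ξ, T I.ξ⟫_ℂ) hc
      simp only [mul_apply_eq_comp, ContinuousLinearMap.star_eq_adjoint,
        ContinuousLinearMap.adjoint_inner_right, smul_apply, one_apply_eq_self, inner_smul_right,
        inner_self_eq_norm_sq_to_K, h1] at this
      exact (mul_eq_right₀ (by simpa using I.ξ_ne)).1 this.symm
    rw [h2, one_smul] at hc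
    have h3 : d = 1 := by
      have := congrArg (fun T => star (u t) * T * u t) hd
      simp only [mul_smul_comm, smul_mul_assoc, mul_one, ← mul_assoc, hc, one_mul] at this
      exact (smul_left_injective ℂ I.one_ne_zero (this.symm.trans (one_smul _ _).symm))
    exact ⟨hc, by rw [hd, h3, one_smul]⟩
  obtain ⟨v, t₁, ht₁, ht₁₀, v0, vadd, vn, vc, hv⟩ := bargmann ht₀ u
    (by simp [u, r, h0, hξ.ne']) hun
    (fun η => ((Complex.continuous_ofReal.comp hr).continuousOn.inv₀ fun t ht => by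
      simpa using (hr0 t (abs_lt.2 ht)).ne').smul (hc η).continuousOn)
    fun s t _ _ h => (huU _).eq_smul hΦ (hun _ h).2 ((huU s).mul hΦ (huU t))
  refine ⟨v, v0, vadd, vn, vc, of_small ht₁ (fun t ht => ?_) fun s t hs ht => vadd s t ▸ hs.mul hΦ ht,
    fun S hS => of_small ht₁ (fun t ht => ?_) fun s t hs ht => vadd s t ▸ hs.mul_right ht,
    _, inferInstance, hl, t₁, ht₁, fun t ht => ?_⟩
  · obtain ⟨z, -, e⟩ := hv t ht
    exact e ▸ (huU t).smul z
  · obtain ⟨z, -, e⟩ := hv t ht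
    exact e ▸ ((hS _ ⟨_, _, inferInstance, hl, norm_Fx t, hE t⟩).smul_right _).smul_right z
  · obtain ⟨z, hz, e⟩ := hv t ht
    have h1 : z ≠ 0 := norm_ne_zero_iff.1 (hz ▸ one_ne_zero)
    have h2 : (r t : ℂ) ≠ 0 := by simpa using (hr0 t (ht.trans_le ht₁₀)).ne'
    refine ⟨r t * z⁻¹, mul_ne_zero h2 (inv_ne_zero h1), ?_⟩
    have h3 : (r t : ℂ) * z⁻¹ * (z * (r t : ℂ)⁻¹) = 1 := by field_simp
    simpa only [e, u, smul_smul, h3, one_smul] using hE t

end Crest.Agent.N111.E4
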